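import Vale.Agent.Lib.P002.PantsFlags

/-!
Rank three local systems on the projective line minus three points with two prescribed regular
semisimple boundary classes (for instance quasi-unipotent classes with three distinct
eigenvalues) and prescribed eigenvalues of the third boundary monodromy: the representations
into SL_3 of the ring of integers of one number field are Zariski dense in the variety of all
representations with this boundary behaviour.
-/

namespace Vale.Agent.Results.P002.PantsRankThree

/-- Let α, β be triples of pairwise distinct algebraic integers, each of product one, and let δ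
be any triple of algebraic integers.  There is a number field L inside the complex numbers such
that every polynomial P in the entries of a pair (A, B) of 3 x 3 matrices which vanishes at all
pairs with entries in the ring of integers of L such that A, B and A * B have characteristic
polynomials with roots α, β and δ, vanishes at every complex pair (A, B) such that A, B and
A * B have these characteristic polynomials. -/
theorem result (α β δ : Fin 3 → ℂ)
    (hα : ∀ i, IsIntegral ℤ (α i)) (hβ : ∀ i, IsIntegral ℤ (β i)) (hδ : ∀ i, IsIntegral ℤ (δ i))
    (hαi : Function.Injective α) (hβi : Function.Injective β)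
    (hα1 : α 0 * α 1 * α 2 = 1) (hβ1 : β 0 * β 1 * β 2 = 1) :
    ∃ L : IntermediateField ℚ ℂ, FiniteDimensional ℚ L ∧
      ∀ P : MvPolynomial (Fin 2 × Fin 3 × Fin 3) ℂ,
        (∀ A B : Matrix (Fin 3) (Fin 3) ℂ,
          (∀ i j, A i j ∈ L ∧ IsIntegral ℤ (A i j)) →
          (∀ i j, B i j ∈ L ∧ IsIntegral ℤ (B i j)) →
          A.charpoly = ∏ i, (Polynomial.X - Polynomial.C (α i)) →
          B.charpoly = ∏ i, (Polynomial.X - Polynomial.C (β i)) →
          (A * B).charpoly = ∏ i, (Polynomial.X - Polynomial.C (δ i)) →
          MvPolynomial.eval (fun x => ![A, B] x.1 x.2.1 x.2.2) P = 0) →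
        ∀ A B : Matrix (Fin 3) (Fin 3) ℂ,
          A.charpoly = ∏ i, (Polynomial.X - Polynomial.C (α i)) →
          B.charpoly = ∏ i, (Polynomial.X - Polynomial.C (β i)) →
          (A * B).charpoly = ∏ i, (Polynomial.X - Polynomial.C (δ i)) →
          MvPolynomial.eval (fun x => ![A, B] x.1 x.2.1 x.2.2) P = 0 :=
  Vale.Agent.Lib.P002.pants_full' α β δ hα hβ hδ hαi hβi hα1 hβ1

end Vale.Agent.Results.P002.PantsRankThree
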