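import Vale.Agent.Lib.P002.MxBig

/-!
Local systems of rank at least two on the projective line minus at least four points with
mixed boundary behaviour: prescribed eigenvalues (regular classes on the open set below) at
three punctures, and at every further puncture either prescribed eigenvalues or monodromy in
a class which is not regular as soon as the rank is at least three: a scalar times a
pseudo-reflection or a scalar times a transvection.  In rank two the first of the further
punctures is required to have prescribed eigenvalues.  There is a nonempty Zariski open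
subset of the variety of all representations with this boundary behaviour in which the
representations into SL_r of the ring of integers of L are Zariski dense, for every number
field L which contains a square root of two and the eigenvalue data.  If the first boundary
monodromy has a single eigenvalue, all representations in the open subset are irreducible.
-/

namespace Vale.Agent.Results.P002.SpheresMixedClasses

/-- The matrix M has a cyclic vector: a vector v such that every vector is p(M) v for some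
polynomial p. -/
def HasCyclicVector {k : ℕ} (M : Matrix (Fin k) (Fin k) ℂ) : Prop :=
  ∃ v : Fin k → ℂ, ∀ u : Fin k → ℂ, ∃ p : Polynomial ℂ,
    Matrix.mulVec (Polynomial.aeval M p) v = u

/-- The tuple (A, B, Z_0, ..., Z_m) of complex matrices of size n + 2 has the prescribed
boundary behaviour: A, B and A Z_0 ... Z_m B have characteristic polynomials with roots α, β
and δ; for every index l outside S the matrix Z_l has characteristic polynomial with roots
γ_l; for every index l in S the matrix Z_l is mu_l (1 + u v^T) for two vectors u, v with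
v^T u = lam_l - 1. -/
def MixedTuple (n m : ℕ) (S : Finset (Fin (m + 1))) (α β δ : Fin (n + 2) → ℂ)
    (γ : Fin (m + 1) → Fin (n + 2) → ℂ) (lam mu : Fin (m + 1) → ℂ)
    (A B : Matrix (Fin (n + 2)) (Fin (n + 2)) ℂ)
    (Z : Fin (m + 1) → Matrix (Fin (n + 2)) (Fin (n + 2)) ℂ) : Prop :=
  A.charpoly = ∏ i, (Polynomial.X - Polynomial.C (α i)) ∧
    B.charpoly = ∏ i, (Polynomial.X - Polynomial.C (β i)) ∧
    (∀ l, (l ∉ S → (Z l).charpoly = ∏ i, (Polynomial.X - Polynomial.C (γ l i))) ∧
      (l ∈ S → ∃ u v : Fin (n + 2) → ℂ, dotProduct v u = lam l - 1 ∧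
        Z l = mu l • (1 + Matrix.vecMulVec u v))) ∧
    (A * (List.ofFn Z).prod * B).charpoly = ∏ i, (Polynomial.X - Polynomial.C (δ i))

/-- Let n, m be natural numbers and S a set of indices l ≤ m; if n is zero, assume that S
does not contain 0.  Let
α, β, δ and γ_l (l outside S) be families of n + 2 algebraic integers of product one, and
let lam_l, mu_l (l in S) be algebraic integers with mu_l ^ (n + 2) lam_l = 1.  Let V be the
set of tuples (A, B, Z_0, ..., Z_m) of complex matrices of size n + 2 with the prescribed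
boundary behaviour: A, B and A Z_0 ... Z_m B have characteristic polynomials with roots α, β
and δ, the matrix Z_l has characteristic polynomial with roots γ_l for every l outside S, and
Z_l is mu_l (1 + u v^T) for two vectors u, v with v^T u = lam_l - 1 for every l in S.  There
is a polynomial F in the entries of the tuple which does not vanish identically on V, such
that at every point of V at which F does not vanish: the matrices A, B, A Z_0 ... Z_m B and
Z_l for l outside S have cyclic vectors; no Z_l with l in S is the scalar matrix mu_l (so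
Z_l is conjugate to mu_l times the diagonal matrix with entries 1, ..., 1, lam_l if lam_l is
not 1, and to mu_l times a transvection if lam_l is 1); if all α_i are equal, the matrices
A, B, Z_l have no common invariant subspace besides zero and the whole space; and for every
subfield L of the complex numbers which contains a square root of two and all the numbers
α_i, β_i, δ_i, γ_l i (l outside S), lam_l, mu_l (l in S), every polynomial P which vanishes
at all points of V with entries in the ring of integers of L at which F does not vanish,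
vanishes at the point.  Such a field L of finite degree exists. -/
theorem result (n m : ℕ) (S : Finset (Fin (m + 1))) (h0 : (0 : Fin (m + 1)) ∉ S ∨ 1 ≤ n)
    (α β δ : Fin (n + 2) → ℂ) (γ : Fin (m + 1) → Fin (n + 2) → ℂ) (lam mu : Fin (m + 1) → ℂ)
    (hα : ∀ i, IsIntegral ℤ (α i)) (hβ : ∀ i, IsIntegral ℤ (β i)) (hδ : ∀ i, IsIntegral ℤ (δ i))
    (hγ : ∀ l, l ∉ S → ∀ i, IsIntegral ℤ (γ l i))
    (hlam : ∀ l, l ∈ S → IsIntegral ℤ (lam l)) (hmu : ∀ l, l ∈ S → IsIntegral ℤ (mu l))
    (hα1 : ∏ i, α i = 1) (hβ1 : ∏ i, β i = 1) (hδ1 : ∏ i, δ i = 1)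
    (hγ1 : ∀ l, l ∉ S → ∏ i, γ l i = 1) (hml : ∀ l, l ∈ S → mu l ^ (n + 2) * lam l = 1) :
    (∃ F : MvPolynomial ((Fin 2 ⊕ Fin (m + 1)) × Fin (n + 2) × Fin (n + 2)) ℂ,
      (∃ (A B : Matrix (Fin (n + 2)) (Fin (n + 2)) ℂ)
        (Z : Fin (m + 1) → Matrix (Fin (n + 2)) (Fin (n + 2)) ℂ),
        MixedTuple n m S α β δ γ lam mu A B Z ∧
        MvPolynomial.eval (fun x => Sum.elim ![A, B] Z x.1 x.2.1 x.2.2) F ≠ 0) ∧
      ∀ (A B : Matrix (Fin (n + 2)) (Fin (n + 2)) ℂ)
        (Z : Fin (m + 1) → Matrix (Fin (n + 2)) (Fin (n + 2)) ℂ),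
        MixedTuple n m S α β δ γ lam mu A B Z →
        MvPolynomial.eval (fun x => Sum.elim ![A, B] Z x.1 x.2.1 x.2.2) F ≠ 0 →
        (HasCyclicVector A ∧ HasCyclicVector B ∧ (∀ l, l ∉ S → HasCyclicVector (Z l)) ∧
          (∀ l, l ∈ S → Z l ≠ mu l • 1) ∧ HasCyclicVector (A * (List.ofFn Z).prod * B)) ∧
        ((∀ i, α i = α 0) →
          ∀ W : Submodule ℂ (Fin (n + 2) → ℂ), (∀ x ∈ W, Matrix.mulVec A x ∈ W) →
            (∀ x ∈ W, Matrix.mulVec B x ∈ W) → (∀ l, ∀ x ∈ W, Matrix.mulVec (Z l) x ∈ W) →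
            W = ⊥ ∨ W = ⊤) ∧
        ∀ L : IntermediateField ℚ ℂ, (∃ s ∈ L, s ^ 2 = 2) → (∀ i, α i ∈ L) → (∀ i, β i ∈ L) →
          (∀ i, δ i ∈ L) → (∀ l, l ∉ S → ∀ i, γ l i ∈ L) →
          (∀ l, l ∈ S → lam l ∈ L ∧ mu l ∈ L) →
          ∀ P : MvPolynomial ((Fin 2 ⊕ Fin (m + 1)) × Fin (n + 2) × Fin (n + 2)) ℂ,
            (∀ (A' B' : Matrix (Fin (n + 2)) (Fin (n + 2)) ℂ)
              (Z' : Fin (m + 1) → Matrix (Fin (n + 2)) (Fin (n + 2)) ℂ),
              (∀ i j, A' i j ∈ L ∧ IsIntegral ℤ (A' i j)) →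
              (∀ i j, B' i j ∈ L ∧ IsIntegral ℤ (B' i j)) →
              (∀ l i j, Z' l i j ∈ L ∧ IsIntegral ℤ (Z' l i j)) →
              MixedTuple n m S α β δ γ lam mu A' B' Z' →
              MvPolynomial.eval (fun x => Sum.elim ![A', B'] Z' x.1 x.2.1 x.2.2) F ≠ 0 →
              MvPolynomial.eval (fun x => Sum.elim ![A', B'] Z' x.1 x.2.1 x.2.2) P = 0) →
            MvPolynomial.eval (fun x => Sum.elim ![A, B] Z x.1 x.2.1 x.2.2) P = 0) ∧
    ∃ L : IntermediateField ℚ ℂ, FiniteDimensional ℚ L ∧ (∃ s ∈ L, s ^ 2 = 2) ∧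
      (∀ i, α i ∈ L) ∧ (∀ i, β i ∈ L) ∧ (∀ i, δ i ∈ L) ∧ (∀ l, l ∉ S → ∀ i, γ l i ∈ L) ∧
      ∀ l, l ∈ S → lam l ∈ L ∧ mu l ∈ L := by
  obtain ⟨⟨F, ⟨A0, B0, Z0, a1, a2, a3, a4, a5⟩, h2⟩, hL⟩ :=
    Vale.Agent.Lib.P002.mixed_regular_field_gen n m S h0 α β δ γ lam mu hα hβ hδ hγ hlam hmu hα1
      hβ1 hδ1 hγ1 hml
  refine ⟨⟨F, ⟨A0, B0, Z0, ⟨a1, a2, a3, a4⟩, a5⟩, fun A B Z hV hF => ?_⟩, hL⟩
  obtain ⟨c1, c2, c3, c4⟩ := hV
  obtain ⟨b1, b2, b3⟩ := h2 A B Z c1 c2 c3 c4 hF
  exact ⟨b1, b2, fun L hs hαL hβL hδL hγL hlmL P hP =>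
    b3 L hs hαL hβL hδL hγL hlmL P fun A' B' Z' i1 i2 i3 d1 d2 d3 d4 d5 =>
      hP A' B' Z' i1 i2 i3 ⟨d1, d2, d3, d4⟩ d5⟩

end Vale.Agent.Results.P002.SpheresMixedClasses
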