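import Vale.Agent.Lib.P002.SrIrred

/-!
Local systems of rank at least two on the projective line minus at least three points with
prescribed eigenvalues of all boundary monodromies, with no condition on the eigenvalues, in
every case except rank two with three punctures.  There is a nonempty Zariski open subset of
the variety of all representations with this boundary behaviour, all of whose points have
regular boundary monodromies (they have cyclic vectors: one Jordan block for each eigenvalue),
in which the representations into SL_r of the ring of integers of L are Zariski dense, for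
every number field L which contains a square root of two and the prescribed eigenvalues.  If
the first boundary monodromy has a single eigenvalue (for instance if it is maximally
unipotent), all representations in the open subset are irreducible.
-/

namespace Vale.Agent.Results.P002.SpheresRegularIrreducible

/-- Let n and m be natural numbers, not both zero.  Let α, β, δ and γ_l (l < m) be families of
n + 2 algebraic integers, all of product one, with no further condition.  Let V be the set of
tuples (A, B, Z_0, ..., Z_{m-1}) of complex matrices of size n + 2 such that A, B, Z_l and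
A Z_0 ... Z_{m-1} B have characteristic polynomials with roots α, β, γ_l and δ.  There is a
polynomial F in the entries of the tuple which does not vanish identically on V, such that
at every point (A, B, Z) of V at which F does not vanish: the matrices A, B, Z_l and
A Z_0 ... Z_{m-1} B have cyclic vectors; if all α_i are equal, the matrices A, B, Z_l have no
common invariant subspace besides zero and the whole space; and for every subfield L of the
complex numbers which contains a square root of two and all the numbers α_i, β_i, δ_i, γ_l i,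
every polynomial P which vanishes at all points of V with entries in the ring of integers of L
at which F does not vanish, vanishes at (A, B, Z).  Such a field L of finite degree exists. -/
theorem result (n m : ℕ) (hnm : 1 ≤ n ∨ 1 ≤ m)
    (α β δ : Fin (n + 2) → ℂ) (γ : Fin m → Fin (n + 2) → ℂ)
    (hα : ∀ i, IsIntegral ℤ (α i)) (hβ : ∀ i, IsIntegral ℤ (β i)) (hδ : ∀ i, IsIntegral ℤ (δ i))
    (hγ : ∀ l i, IsIntegral ℤ (γ l i))
    (hα1 : ∏ i, α i = 1) (hβ1 : ∏ i, β i = 1) (hδ1 : ∏ i, δ i = 1)
    (hγ1 : ∀ l, ∏ i, γ l i = 1) :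
    (∃ F : MvPolynomial ((Fin 2 ⊕ Fin m) × Fin (n + 2) × Fin (n + 2)) ℂ,
      (∃ (A B : Matrix (Fin (n + 2)) (Fin (n + 2)) ℂ)
        (Z : Fin m → Matrix (Fin (n + 2)) (Fin (n + 2)) ℂ),
        A.charpoly = ∏ i, (Polynomial.X - Polynomial.C (α i)) ∧
        B.charpoly = ∏ i, (Polynomial.X - Polynomial.C (β i)) ∧
        (∀ l, (Z l).charpoly = ∏ i, (Polynomial.X - Polynomial.C (γ l i))) ∧
        (A * (List.ofFn Z).prod * B).charpoly = ∏ i, (Polynomial.X - Polynomial.C (δ i)) ∧
        MvPolynomial.eval (fun x => Sum.elim ![A, B] Z x.1 x.2.1 x.2.2) F ≠ 0) ∧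
      ∀ (A B : Matrix (Fin (n + 2)) (Fin (n + 2)) ℂ)
        (Z : Fin m → Matrix (Fin (n + 2)) (Fin (n + 2)) ℂ),
        A.charpoly = ∏ i, (Polynomial.X - Polynomial.C (α i)) →
        B.charpoly = ∏ i, (Polynomial.X - Polynomial.C (β i)) →
        (∀ l, (Z l).charpoly = ∏ i, (Polynomial.X - Polynomial.C (γ l i))) →
        (A * (List.ofFn Z).prod * B).charpoly = ∏ i, (Polynomial.X - Polynomial.C (δ i)) →
        MvPolynomial.eval (fun x => Sum.elim ![A, B] Z x.1 x.2.1 x.2.2) F ≠ 0 →
        ((∃ v : Fin (n + 2) → ℂ, ∀ u : Fin (n + 2) → ℂ, ∃ p : Polynomial ℂ,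
            Matrix.mulVec (Polynomial.aeval A p) v = u) ∧
          (∃ v : Fin (n + 2) → ℂ, ∀ u : Fin (n + 2) → ℂ, ∃ p : Polynomial ℂ,
            Matrix.mulVec (Polynomial.aeval B p) v = u) ∧
          (∀ l, ∃ v : Fin (n + 2) → ℂ, ∀ u : Fin (n + 2) → ℂ, ∃ p : Polynomial ℂ,
            Matrix.mulVec (Polynomial.aeval (Z l) p) v = u) ∧
          ∃ v : Fin (n + 2) → ℂ, ∀ u : Fin (n + 2) → ℂ, ∃ p : Polynomial ℂ,
            Matrix.mulVec (Polynomial.aeval (A * (List.ofFn Z).prod * B) p) v = u) ∧
        ((∀ i, α i = α 0) →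
          ∀ W : Submodule ℂ (Fin (n + 2) → ℂ), (∀ x ∈ W, Matrix.mulVec A x ∈ W) →
            (∀ x ∈ W, Matrix.mulVec B x ∈ W) → (∀ l, ∀ x ∈ W, Matrix.mulVec (Z l) x ∈ W) →
            W = ⊥ ∨ W = ⊤) ∧
        ∀ L : IntermediateField ℚ ℂ, (∃ s ∈ L, s ^ 2 = 2) → (∀ i, α i ∈ L) → (∀ i, β i ∈ L) →
          (∀ i, δ i ∈ L) → (∀ l i, γ l i ∈ L) →
          ∀ P : MvPolynomial ((Fin 2 ⊕ Fin m) × Fin (n + 2) × Fin (n + 2)) ℂ,
            (∀ (A' B' : Matrix (Fin (n + 2)) (Fin (n + 2)) ℂ)
              (Z' : Fin m → Matrix (Fin (n + 2)) (Fin (n + 2)) ℂ),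
              (∀ i j, A' i j ∈ L ∧ IsIntegral ℤ (A' i j)) →
              (∀ i j, B' i j ∈ L ∧ IsIntegral ℤ (B' i j)) →
              (∀ l i j, Z' l i j ∈ L ∧ IsIntegral ℤ (Z' l i j)) →
              A'.charpoly = ∏ i, (Polynomial.X - Polynomial.C (α i)) →
              B'.charpoly = ∏ i, (Polynomial.X - Polynomial.C (β i)) →
              (∀ l, (Z' l).charpoly = ∏ i, (Polynomial.X - Polynomial.C (γ l i))) →
              (A' * (List.ofFn Z').prod * B').charpoly =
                ∏ i, (Polynomial.X - Polynomial.C (δ i)) →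
              MvPolynomial.eval (fun x => Sum.elim ![A', B'] Z' x.1 x.2.1 x.2.2) F ≠ 0 →
              MvPolynomial.eval (fun x => Sum.elim ![A', B'] Z' x.1 x.2.1 x.2.2) P = 0) →
            MvPolynomial.eval (fun x => Sum.elim ![A, B] Z x.1 x.2.1 x.2.2) P = 0) ∧
      ∃ L : IntermediateField ℚ ℂ, FiniteDimensional ℚ L ∧ (∃ s ∈ L, s ^ 2 = 2) ∧
        (∀ i, α i ∈ L) ∧ (∀ i, β i ∈ L) ∧ (∀ i, δ i ∈ L) ∧ ∀ l i, γ l i ∈ L :=
  Vale.Agent.Lib.P002.spheres_regular_irred_pointwise n m hnm α β δ γ hα hβ hδ hγ hα1 hβ1 hδ1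
    hγ1

end Vale.Agent.Results.P002.SpheresRegularIrreducible
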