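import Vale.Agent.Lib.P002.G1Irred

/-!
Local systems of any rank on a one-holed torus (an elliptic curve minus a point) whose boundary
monodromy has prescribed pairwise distinct eigenvalues.  The fundamental group is free on two
loops a, b and the boundary loop is their commutator, so a representation is a pair (A, B) of
matrices of determinant one, and the boundary condition says that the commutator of A and B has
the prescribed characteristic polynomial (for distinct eigenvalues: that it lies in the
prescribed regular semisimple conjugacy class).  There is a nonempty Zariski open subset of the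
variety of all such pairs in which the pairs with entries in the ring of integers of L are
Zariski dense, for every number field L which contains a square root of two and the prescribed
eigenvalues.  If no proper nonempty subfamily of the eigenvalues has product one, all such
pairs are irreducible.
-/

namespace Vale.Agent.Results.P002.TorusRegularIrreducible

/-- Let δ be a family of k + 1 pairwise distinct algebraic integers of product one.  Let V be
the set of pairs (A, B) of complex matrices of size k + 1 and determinant one such that the
commutator A B A⁻¹ B⁻¹ has characteristic polynomial with roots δ.  First part: there is a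
polynomial F in the entries of the pair which does not vanish identically on V, such that at
every point (A, B) of V at which F does not vanish: for every subfield L of the complex numbers
which contains a square root of two and all the numbers δ_i, every polynomial P which vanishes
at all points of V with entries in the ring of integers of L at which F does not vanish,
vanishes at (A, B).  Second part: if no nonempty proper subfamily of the δ_i has product one,
then for every point (A, B) of V the matrices A and B have no common invariant subspace besides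
zero and the whole space.  Third part: a field L as in the first part of finite degree
exists. -/
theorem result (k : ℕ) (δ : Fin (k + 1) → ℂ) (hδ : ∀ i, IsIntegral ℤ (δ i))
    (hδinj : Function.Injective δ) (hδ1 : ∏ i, δ i = 1) :
    (∃ F : MvPolynomial (Fin 2 × Fin (k + 1) × Fin (k + 1)) ℂ,
      (∃ A B : Matrix (Fin (k + 1)) (Fin (k + 1)) ℂ, A.det = 1 ∧ B.det = 1 ∧
        (A * B * A⁻¹ * B⁻¹).charpoly = ∏ i, (Polynomial.X - Polynomial.C (δ i)) ∧
        MvPolynomial.eval (fun x => ![A, B] x.1 x.2.1 x.2.2) F ≠ 0) ∧
      ∀ A B : Matrix (Fin (k + 1)) (Fin (k + 1)) ℂ, A.det = 1 → B.det = 1 →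
        (A * B * A⁻¹ * B⁻¹).charpoly = ∏ i, (Polynomial.X - Polynomial.C (δ i)) →
        MvPolynomial.eval (fun x => ![A, B] x.1 x.2.1 x.2.2) F ≠ 0 →
        ∀ L : IntermediateField ℚ ℂ, (∃ s ∈ L, s ^ 2 = 2) → (∀ i, δ i ∈ L) →
          ∀ P : MvPolynomial (Fin 2 × Fin (k + 1) × Fin (k + 1)) ℂ,
            (∀ A' B' : Matrix (Fin (k + 1)) (Fin (k + 1)) ℂ,
              (∀ i j, A' i j ∈ L ∧ IsIntegral ℤ (A' i j)) →
              (∀ i j, B' i j ∈ L ∧ IsIntegral ℤ (B' i j)) →
              A'.det = 1 → B'.det = 1 →
              (A' * B' * A'⁻¹ * B'⁻¹).charpoly = ∏ i, (Polynomial.X - Polynomial.C (δ i)) →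
              MvPolynomial.eval (fun x => ![A', B'] x.1 x.2.1 x.2.2) F ≠ 0 →
              MvPolynomial.eval (fun x => ![A', B'] x.1 x.2.1 x.2.2) P = 0) →
            MvPolynomial.eval (fun x => ![A, B] x.1 x.2.1 x.2.2) P = 0) ∧
    ((∀ S : Finset (Fin (k + 1)), S.Nonempty → S ≠ Finset.univ → ∏ i ∈ S, δ i ≠ 1) →
      ∀ A B : Matrix (Fin (k + 1)) (Fin (k + 1)) ℂ, A.det = 1 → B.det = 1 →
        (A * B * A⁻¹ * B⁻¹).charpoly = ∏ i, (Polynomial.X - Polynomial.C (δ i)) →
        ∀ W : Submodule ℂ (Fin (k + 1) → ℂ), (∀ x ∈ W, Matrix.mulVec A x ∈ W) →
          (∀ x ∈ W, Matrix.mulVec B x ∈ W) → W = ⊥ ∨ W = ⊤) ∧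
    ∃ L : IntermediateField ℚ ℂ, FiniteDimensional ℚ L ∧ (∃ s ∈ L, s ^ 2 = 2) ∧
      ∀ i, δ i ∈ L :=
  Vale.Agent.Lib.P002.torus_regular_irred k δ hδ hδinj hδ1

end Vale.Agent.Results.P002.TorusRegularIrreducible
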